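import Crest.Agent.N325.Lst.ListR
import Crest.Agent.N325.Dj.Dij
import Crest.Agent.N325.Lst.ListImpl
import Crest.Agent.N325.P2.Dual
import Crest.Agent.N325.P2.Defs2

-- ▼ part N325/Bl/Ball
section

/-!
# Row 325 (helper70): local region growing

`ball` finds a radius `r < T * 2 ^ K` whose ball has a small cut, in time proportional to the volume
of that ball.  The balls come from a closure `dij` (local Dijkstra).
-/

set_option autoImplicit false

namespace Crest.Agent.N325.Bl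

variable {g : Gl}

/-! ### binary search on `∑ r, cut r` -/

/-- an arc seen from the centre: distance of the tail, distance of the head, capacity -/
abbrev It := ℕ × ℕ × ℕ

/-- the contribution of an arc to `∑ r ∈ [a, a + h), cut r` -/
def part (a h : ℕ) (i : It) : ℕ := i.2.2 * (min i.2.1 (a + h) - max i.1 a)

/-- `∑ r ∈ [a, a + h), cut r` -/
def tot (l : List It) (a h : ℕ) : ℕ := (l.map (part a h)).sum

theorem part_add (a h k : ℕ) (i : It) : part a (h + k) i = part a h i + part (a + h) k i := by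
  unfold part
  rw [← mul_add]
  congr 1
  omega

theorem tot_add (l : List It) (a h k : ℕ) : tot l a (h + k) = tot l a h + tot l (a + h) k := by
  unfold tot
  rw [← List.sum_map_add]
  exact congrArg _ (List.map_congr_left fun i _ => part_add a h k i)

/-- keep the better half of the interval -/
def half (l : List It) (s : ℕ × ℕ) : R (ℕ × ℕ) :=
  sumL (part s.1 (s.2 / 2)) l >>= fun x => nat (s.1 + s.2 / 2) >>= fun b =>
    sumL (part b (s.2 / 2)) l >>= fun y => pure (if x ≤ y then s.1 else b, s.2 / 2)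

/-- the binary search -/
def bs (l : List It) (K a H : ℕ) : R (ℕ × ℕ) := forN (fun _ => half l) K 0 (a, H)

theorem sp_bs (l : List It) (K a : ℕ) (h1 : tot l a (2 ^ K) ≤ g.X) (h2 : a + 2 ^ K ≤ g.X) :
    Sp g (bs l K a (2 ^ K)) fun r t => a ≤ r.1 ∧ r.1 < a + 2 ^ K ∧
      2 ^ K * tot l r.1 1 ≤ tot l a (2 ^ K) ∧ t ≤ K * (2 * l.length + 3) + 1 := by
  refine (sp_forN' (fun j (s : ℕ × ℕ) => s.2 = 2 ^ (K - j) ∧ a ≤ s.1 ∧ s.1 + s.2 ≤ a + 2 ^ K ∧
    2 ^ j * tot l s.1 s.2 ≤ tot l a (2 ^ K)) (2 * l.length + 2) (fun j s _ hj k => ?_)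
    (s := (a, 2 ^ K)) ⟨rfl, le_rfl, le_rfl, by simp⟩).mono fun r t k => ?_
  · obtain ⟨k1, k2, k3, k4⟩ := k
    have e : s.2 = s.2 / 2 + s.2 / 2 := by
      rw [k1, show K - j = K - (j + 1) + 1 by omega, pow_succ]; omega
    have e' : s.2 / 2 = 2 ^ (K - (j + 1)) := by
      rw [k1, show K - j = K - (j + 1) + 1 by omega, pow_succ]; omega
    have e2 := tot_add l s.1 (s.2 / 2) (s.2 / 2)
    rw [← e] at e2
    have e3 : tot l s.1 s.2 ≤ g.X := (Nat.le_mul_of_pos_left _ (by positivity)).trans (k4.trans h1)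
    refine (sp_sumL _ l (by change tot l _ _ ≤ _; omega)).bind fun x t kx => ?_
    refine sp_bind.2 (sp_nat.2 ⟨by omega, ?_⟩)
    refine (sp_sumL _ l (by change tot l _ _ ≤ _; omega)).bind fun y u ky => ?_
    obtain ⟨rfl, kt⟩ := kx
    obtain ⟨rfl, ku⟩ := ky
    refine ⟨⟨e', ?_⟩, by omega⟩
    rw [pow_succ, mul_assoc]
    unfold tot at e2 k4 ⊢
    dsimp only
    split_ifs with c
    · exact ⟨k2, by omega, (Nat.mul_le_mul_left _ (by omega)).trans k4⟩
    · exact ⟨by omega, by omega, (Nat.mul_le_mul_left _ (by omega)).trans k4⟩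
  · obtain ⟨⟨k1, k2, k3, k4⟩, k5⟩ := k
    rw [zero_add] at k1 k4
    rw [Nat.sub_self, pow_zero] at k1
    rw [k1] at k3 k4
    exact ⟨k2, by omega, k4, k5⟩

/-! ### balls -/

/-- vertices, distances, marks -/
abbrev Bal := List ℕ × Arr ℕ × Arr Bool

/-- the ball of radius `r`; `W x d` = there is a walk of length `d` from the centre to `x` -/
structure IsBall (W : ℕ → ℕ → Prop) (r : ℕ) (B : Bal) : Prop where
  nd : B.1.Nodup
  vis : ∀ x, B.2.2.get x = true ↔ x ∈ B.1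
  mem : ∀ x, x ∈ B.1 ↔ ∃ d ≤ r, W x d
  dw : ∀ x ∈ B.1, W x (B.2.1.get x)
  dmin : ∀ x ∈ B.1, ∀ d, W x d → B.2.1.get x ≤ d

theorem sum_le_of_sub {L L' : List ℕ} (h : L.Nodup) (h' : L'.Nodup) {f f' : ℕ → ℕ}
    (s : ∀ x ∈ L, x ∈ L' ∧ f x ≤ f' x) : (L.map f).sum ≤ (L'.map f').sum := by
  rw [← List.sum_toFinset _ h, ← List.sum_toFinset _ h']
  exact (Finset.sum_le_sum fun x k => (s x (List.mem_toFinset.1 k)).2).trans
    (Finset.sum_le_sum_of_subset fun x k => List.mem_toFinset.2 (s x (List.mem_toFinset.1 k)).1)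

variable (adj : ℕ → List ℕ) (ok : ℕ → ℕ → Bool) (hd cap : ℕ → ℕ → ℕ)

/-- the volume -/
def vol (L : List ℕ) : ℕ := (L.map fun x => 1 + (adj x).length).sum

/-- the capacity of the arcs leaving `L` -/
def cut (L : List ℕ) : ℕ :=
  (L.map fun x => ((adj x).map fun e => if ok x e = true ∧ hd x e ∉ L then cap x e else 0).sum).sum

/-- the volume -/
def volR (L : List ℕ) : R ℕ := foldL (fun x s => lenL (adj x) >>= fun k => nat (s + 1 + k)) L 0

theorem sp_volR (L : List ℕ) (h : vol adj L ≤ g.X) :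
    Sp g (volR adj L) fun r t => r = vol adj L ∧ t ≤ 2 * vol adj L + 1 := by
  refine (sp_foldL' (fun l s => s + vol adj l = vol adj L) (fun x => (adj x).length + 1)
    (fun x l s k => (sp_lenL _).bind fun n t k' => ?_) (l := L) (s := 0) (zero_add _)).mono
    fun r t k => ⟨by simpa [vol] using k.1, k.2.trans ?_⟩
  · simp only [vol, List.map_cons, List.sum_cons] at k h ⊢
    exact sp_nat.2 ⟨by omega, by omega, by omega⟩
  · rw [vol, ← List.sum_map_mul_left]
    exact Nat.succ_le_succ (List.sum_le_sum fun x _ => by omega)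

/-- the arc `e` at `x` seen from the centre; `ρ` = radius -/
def item (B : Bal) (ρ x e : ℕ) : It :=
  (B.2.1.get x, if B.2.2.get (hd x e) then B.2.1.get (hd x e) else ρ, if ok x e then cap x e else 0)

/-- all arcs -/
def items (B : Bal) (ρ : ℕ) : List It := B.1.flatMap fun x => (adj x).map (item ok hd cap B ρ x)

theorem tot_items (B : Bal) (ρ a h : ℕ) : tot (items adj ok hd cap B ρ) a h =
    (B.1.map fun x => ((adj x).map fun e => part a h (item ok hd cap B ρ x e)).sum).sum := by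
  unfold tot items
  induction B.1 with
  | nil => rfl
  | cons x L ih => simp [ih, Function.comp_def]

theorem length_items (B : Bal) (ρ : ℕ) :
    (items adj ok hd cap B ρ).length + B.1.length = vol adj B.1 := by
  unfold items vol
  induction B.1 with
  | nil => rfl
  | cons x L ih => simp at ih ⊢; omega

/-- the next larger ball and its volume -/
def nxt (dij : ℕ → R Bal) (H a v : ℕ) : R (ℕ × ℕ × Bal × ℕ) :=
  nat (a + H) >>= fun b => call dij b >>= fun B => volR adj B.1 >>= fun w => pure (a, v, B, w)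

/-- grow until the volume does not double -/
def grow (dij : ℕ → R Bal) (T H : ℕ) : R (ℕ × ℕ × Bal × ℕ) :=
  nxt adj dij H 0 1 >>= whileF (fun s => decide (2 * s.2.1 < s.2.2.2))
    (fun s => nat (s.1 + H) >>= fun a => nxt adj dij H a s.2.2.2) (T + 1)

/-- **region growing**: the radius and the ball -/
def ball (dij : ℕ → R Bal) (T K H : ℕ) : R (ℕ × Bal) :=
  grow adj dij T H >>= fun s => nat (s.1 + H) >>= fun ρ =>
    flatMapL (fun x => mapP (item ok hd cap s.2.2.1 ρ x) (adj x)) s.2.2.1.1 >>= fun l =>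
      bs l K s.1 H >>= fun r => call dij r.1 >>= fun B => pure (r.1, B)

variable {adj ok hd cap} {W : ℕ → ℕ → Prop}

theorem IsBall.vol_le {r r' : ℕ} {B B' : Bal} (h : IsBall W r B) (h' : IsBall W r' B') (k : r ≤ r') :
    vol adj B.1 ≤ vol adj B'.1 :=
  sum_le_of_sub h.nd h'.nd fun x hx => by
    obtain ⟨d, a, b⟩ := (h.mem x).1 hx
    exact ⟨(h'.mem x).2 ⟨d, a.trans k, b⟩, le_rfl⟩

theorem IsBall.vol_pos {r s : ℕ} {B : Bal} (h : IsBall W r B) (h0 : W s 0) : 1 ≤ vol adj B.1 :=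
  (Nat.le_add_right 1 _).trans (List.le_sum_of_mem
    (List.mem_map.2 ⟨s, (h.mem s).2 ⟨0, Nat.zero_le _, h0⟩, rfl⟩))

theorem IsBall.le {r : ℕ} {B : Bal} (h : IsBall W r B) {x : ℕ} (hx : x ∈ B.1) : B.2.1.get x ≤ r := by
  obtain ⟨d, a, b⟩ := (h.mem x).1 hx
  exact (h.dmin x hx d b).trans a

theorem sp_grow {dij : ℕ → R Bal} {T H c s U : ℕ} (h0 : W s 0) (hT : 1 ≤ T)
    (hd : ∀ r ≤ T * H, Sp g (dij r) fun B t => IsBall W r B ∧ t ≤ c * (vol adj B.1 + 1))
    (hV : ∀ r B, IsBall W r B → vol adj B.1 ≤ U) (hU : U ≤ 2 ^ T) (h1 : U ≤ g.X)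
    (h2 : T * H ≤ g.X) :
    Sp g (grow adj dij T H) fun p t => p.1 + H ≤ T * H ∧ IsBall W (p.1 + H) p.2.2.1 ∧
      (∀ r B, p.1 ≤ r → IsBall W r B → vol adj p.2.2.1.1 ≤ 2 * vol adj B.1) ∧
      t ≤ T * ((c + 3) * (vol adj p.2.2.1.1 + 1)) + 1 := by
  have hn : ∀ a v, a + H ≤ T * H → Sp g (nxt adj dij H a v) fun p t => p.1 = a ∧ p.2.1 = v ∧
      IsBall W (a + H) p.2.2.1 ∧ p.2.2.2 = vol adj p.2.2.1.1 ∧
      t + 1 ≤ (c + 3) * (p.2.2.2 + 1) := fun a v k =>
    sp_bind.2 (sp_nat.2 ⟨k.trans h2, sp_bind.2 (sp_call.2 ((hd _ k).mono fun B t kB =>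
      (sp_volR adj B.1 ((hV _ _ kB.1).trans h1)).bind fun w u kw =>
        ⟨rfl, rfl, kB.1, kw.1, by
          have := kB.2; have := kw.2; have := kB.1.vol_pos (adj := adj) h0
          dsimp only; rw [kw.1, add_mul]; omega⟩))⟩)
  refine (hn 0 1 (by rw [zero_add]; exact Nat.le_mul_of_pos_left _ hT)).bind fun p t kp => ?_
  refine (sp_whileF (fun (p : ℕ × ℕ × Bal × ℕ) t => ∃ j, j < T ∧ p.1 = j * H ∧ 2 ^ j ≤ p.2.1 ∧
    (∀ r B, p.1 ≤ r → IsBall W r B → p.2.1 ≤ vol adj B.1) ∧ IsBall W (p.1 + H) p.2.2.1 ∧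
    p.2.2.2 = vol adj p.2.2.1.1 ∧ t ≤ (j + 1) * ((c + 3) * (p.2.2.2 + 1)))
    (fun p => T - Nat.log 2 p.2.1) (fun p t k e => ?_) (t := t) (n := T + 1)
    ⟨0, hT, by rw [kp.1, zero_mul], by rw [kp.2.1]; exact le_rfl,
      fun r B _ hB => by rw [kp.2.1]; exact hB.vol_pos h0, by rw [kp.1]; exact kp.2.2.1,
      kp.2.2.2.1, by have := kp.2.2.2.2; omega⟩ (by omega)).mono fun q u k => ?_
  · obtain ⟨j, k1, k2, k3, k4, k5, k6, k7⟩ := k
    have e := of_decide_eq_true e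
    have e1 : p.2.2.2 ≤ 2 ^ T := k6 ▸ (hV _ _ k5).trans hU
    have e2 : 2 ^ (j + 1) < 2 ^ T := by rw [pow_succ]; omega
    have e3 := (Nat.pow_lt_pow_iff_right one_lt_two).1 e2
    have e4 : p.1 + H + H ≤ T * H := by
      rw [k2]; exact le_trans (by rw [Nat.succ_mul, add_mul]; omega) (Nat.mul_le_mul_right H e3)
    refine sp_bind.2 (sp_nat.2 ⟨by omega, (hn _ _ e4).mono fun q u kq => ?_⟩)
    obtain ⟨q1, q2, q3, q4, q5⟩ := kq
    have e5 : p.2.2.2 ≤ q.2.2.2 := by rw [k6, q4]; exact k5.vol_le q3 (Nat.le_add_right _ _)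
    have e6 := Nat.mul_le_mul_left (j + 1) (Nat.mul_le_mul_left (c + 3) (Nat.succ_le_succ e5))
    refine ⟨⟨j + 1, e3, by rw [q1, k2, add_mul, one_mul], by rw [q2, pow_succ]; omega,
      fun r B a b => by rw [q2, k6]; exact k5.vol_le b (q1 ▸ a), q1 ▸ q3, q4, by
        rw [add_mul (j + 1), one_mul]; simp only [Nat.succ_eq_add_one] at e6; omega⟩, ?_⟩
    have p0 : p.2.1 ≠ 0 := by have := Nat.two_pow_pos j; omega
    have e7 : Nat.log 2 p.2.1 + 1 ≤ Nat.log 2 q.2.1 := by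
      rw [q2, ← Nat.log_mul_base one_lt_two p0]; exact Nat.log_mono_right (by omega)
    have e8 : Nat.log 2 p.2.1 < T := Nat.log_lt_of_lt_pow p0 (by omega)
    omega
  · obtain ⟨e, u', rfl, j, k1, k2, k3, k4, k5, k6, k7⟩ := k
    have e := of_decide_eq_false e
    have e6 := Nat.mul_le_mul_right ((c + 3) * (q.2.2.2 + 1)) (Nat.succ_le_of_lt k1)
    refine ⟨by rw [k2]; exact le_trans (by rw [Nat.succ_mul]) (Nat.mul_le_mul_right H k1), k5,
      fun r B a b => by have := k4 r B a b; omega, ?_⟩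
    rw [← k6]; simp only [Nat.succ_eq_add_one] at e6; omega

/-- **region growing** -/
theorem sp_ball {ln : ℕ → ℕ → ℕ} {dij : ℕ → R Bal} {T K Z c s U : ℕ} (h0 : W s 0) (hT : 1 ≤ T)
    (hW : ∀ x d e, W x d → e ∈ adj x → ok x e = true → W (hd x e) (d + ln x e))
    (hZ : ∀ x d e, W x d → e ∈ adj x → ok x e = true → cap x e * ln x e ≤ Z)
    (hD : ∀ r ≤ T * 2 ^ K, Sp g (dij r) fun B t => IsBall W r B ∧ t ≤ c * (vol adj B.1 + 1))
    (hV : ∀ r B, IsBall W r B → vol adj B.1 ≤ U) (hU : U ≤ 2 ^ T) (h1 : U ≤ g.X)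
    (h2 : T * 2 ^ K ≤ g.X) (h3 : Z * U ≤ g.X) :
    Sp g (ball adj ok hd cap dij T K (2 ^ K)) fun p t => p.1 < T * 2 ^ K ∧ IsBall W p.1 p.2 ∧
      2 ^ K * cut adj ok hd cap p.2.1 ≤ 2 * Z * vol adj p.2.1 ∧
      t ≤ (3 * (T + 1) * (c + 3) + 7 * K + 20) * vol adj p.2.1 := by
  refine (sp_grow h0 hT hD hV hU h1 h2).bind fun p t kp => ?_
  obtain ⟨a, v, B, w⟩ := p
  obtain ⟨k1, k2, k3, k4⟩ := kp
  dsimp only at k1 k2 k3 k4 ⊢
  refine sp_bind.2 (sp_nat.2 ⟨k1.trans h2, ?_⟩)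
  refine (sp_flatMapL (fun x => (adj x).map (item ok hd cap B (a + 2 ^ K) x))
    (fun x => 2 * (adj x).length + 2) fun x _ => (sp_mapP _ _).mono fun r t k => ⟨k.1, k.2.le⟩).bind
    fun l u kl => ?_
  obtain ⟨rfl, ku⟩ := kl
  change u ≤ _ + 2 * (items adj ok hd cap B (a + 2 ^ K)).length + _ + _ at ku
  have e1 := length_items adj ok hd cap B (a + 2 ^ K)
  have e2 : (B.1.map fun x => 2 * (adj x).length + 2).sum = 2 * vol adj B.1 := by
    rw [vol, ← List.sum_map_mul_left]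
    exact congrArg _ (List.map_congr_left fun x _ => by omega)
  have e3 : tot (items adj ok hd cap B (a + 2 ^ K)) a (2 ^ K) ≤ Z * vol adj B.1 := by
    rw [tot_items, vol, ← List.sum_map_mul_left]
    refine List.sum_le_sum fun x hx => (List.sum_le_card_nsmul _ Z fun y hy => ?_).trans
      (by rw [List.length_map, smul_eq_mul, mul_comm]; exact Nat.mul_le_mul_left _ (by omega))
    obtain ⟨e, he, rfl⟩ := List.mem_map.1 hy
    unfold part item
    dsimp only
    by_cases o : ok x e = true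
    · rw [if_pos o]
      refine le_trans (Nat.mul_le_mul_left _ ?_) (hZ x _ e (k2.dw x hx) he o)
      have w := hW x _ e (k2.dw x hx) he o
      split_ifs with i
      · have := k2.dmin _ ((k2.vis _).1 i) _ w; omega
      · have : ¬B.2.1.get x + ln x e ≤ a + 2 ^ K := fun c =>
          i ((k2.vis _).2 ((k2.mem _).2 ⟨_, c, w⟩))
        omega
    · rw [if_neg o, zero_mul]; exact Nat.zero_le _
  refine (sp_bs (items adj ok hd cap B (a + 2 ^ K)) K a
    (e3.trans ((Nat.mul_le_mul_left _ (hV _ _ k2)).trans h3)) (k1.trans h2)).bind fun r u2 kr => ?_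
  obtain ⟨r1, r2, r3, r4⟩ := kr
  refine sp_bind.2 (sp_call.2 ((hD r.1 (by omega)).mono fun B' u3 kB => ?_))
  obtain ⟨b1, b2⟩ := kB
  have e4 := k3 _ _ r1 b1
  have e5 := b1.vol_pos (adj := adj) h0
  refine ⟨by omega, b1, le_trans (Nat.mul_le_mul_left _ ?_) (r3.trans (e3.trans ?_)), ?_⟩
  · rw [tot_items]
    refine sum_le_of_sub b1.nd k2.nd fun x hx => ?_
    obtain ⟨d, d1, d2⟩ := (b1.mem x).1 hx
    have hx' : x ∈ B.1 := (k2.mem x).2 ⟨d, by omega, d2⟩
    refine ⟨hx', List.sum_le_sum fun e he => ?_⟩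
    split_ifs with i
    · unfold part item
      dsimp only
      rw [if_pos i.1]
      refine Nat.le_mul_of_pos_right _ ?_
      have := k2.dmin x hx' d d2
      split_ifs with j
      · have : ¬B.2.1.get (hd x e) ≤ r.1 := fun c =>
          i.2 ((b1.mem _).2 ⟨_, c, k2.dw _ ((k2.vis _).1 j)⟩)
        omega
      · omega
    · exact Nat.zero_le _
  · rw [mul_comm 2 Z, mul_assoc]; exact Nat.mul_le_mul_left _ e4
  · dsimp only
    generalize vol adj B'.1 = V at *
    generalize vol adj B.1 = V' at *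
    generalize (items adj ok hd cap B (a + 2 ^ K)).length = n at *
    have f1 : T * ((c + 3) * (V' + 1)) ≤ T * ((c + 3) * (3 * V)) := by gcongr; omega
    have f2 : K * (2 * n + 3) ≤ K * (7 * V) := by gcongr; omega
    have f3 : c * (V + 1) ≤ (c + 3) * (3 * V) := by gcongr <;> omega
    have f4 : (3 * (T + 1) * (c + 3) + 7 * K + 20) * V =
        T * ((c + 3) * (3 * V)) + (c + 3) * (3 * V) + K * (7 * V) + 20 * V := by ring
    omega

end Crest.Agent.N325.Bl
end

-- ▼ part N325/Bl/Dij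
section

/-!
# Row 325 (helper70): region growing on the local Dijkstra search
-/

set_option autoImplicit false

namespace Crest.Agent.N325.Bl

open Dj

variable {g : Gl}

/-- the ball of radius `r` around `s` -/
def dijB (G : Dg) (B fu s r : ℕ) : R Bal :=
  dij G B r fu [(s, 0)] >>= fun o => pure (o.1, o.2.1, o.2.2.2)

/-- **region growing** around `s` -/
def ballD (G : Dg) (cap : ℕ → ℕ → ℕ) (B fu T K H s : ℕ) : R (ℕ × Bal) :=
  ball G.adj G.ok G.hd cap (dijB G B fu s) T K H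

/-- **region growing**: `V` contains everything that can be reached from `s` -/
theorem sp_ballD {G : Dg} {cap : ℕ → ℕ → ℕ} {B fu T K Z s U : ℕ} (V : Finset ℕ) (hT : 1 ≤ T)
    (hV : ∀ x d, Wk G [(s, 0)] x d → x ∈ V) (hv : ∑ x ∈ V, (1 + (G.adj x).length) ≤ U)
    (hU : U ≤ 2 ^ T)
    (hZ : ∀ x ∈ V, ∀ e ∈ G.adj x, G.ok x e = true → cap x e * G.ln x e ≤ Z)
    (hB : T * 2 ^ K < 2 ^ B) (hfu : 1 + U < fu) (h1 : U ≤ g.X) (h2 : T * 2 ^ K ≤ g.X)
    (h3 : Z * U ≤ g.X) :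
    Sp g (ballD G cap B fu T K (2 ^ K) s) fun p t => p.1 < T * 2 ^ K ∧
      IsBall (Wk G [(s, 0)]) p.1 p.2 ∧
      2 ^ K * cut G.adj G.ok G.hd cap p.2.1 ≤ 2 * Z * vol G.adj p.2.1 ∧
      t ≤ (3 * (T + 1) * (3 * B + 10) + 7 * K + 20) * vol G.adj p.2.1 := by
  have hv' : ∀ r (L : List ℕ), L.Nodup → (∀ x ∈ L, ∃ d ≤ r, Wk G [(s, 0)] x d) →
      Dj.vol G L ≤ U := fun r L a b => (vol_le (fun x d k _ => hV x d k) L a b).trans hv
  refine sp_ball (c := 3 * B + 7) (ln := G.ln) (s := s) (.base List.mem_cons_self) hT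
    (fun x d e a b c => a.step b c) (fun x d e a b c => hZ x (hV x d a) e b c)
    (fun r hr => (sp_dij (by omega) (hv' r) (by simpa using hfu)).bind fun o t k =>
      ⟨⟨k.1.nd, k.1.vis, fun x => k.1.mem, fun x hx => (k.1.wk x hx).1,
        fun x hx d w => k.1.le hx w⟩, ?_⟩)
    (fun r B' k => hv' r _ k.nd fun x hx => (k.mem x).1 hx) hU h1 h2 h3
  have := k.2
  change t + 0 ≤ (3 * B + 7) * (Dj.vol G o.1 + 1)
  rw [List.length_singleton] at this
  nlinarith [Nat.zero_le (Dj.vol G o.1)]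

/-- duals fall by at most `c` per unit of length -/
theorem dual_le {G : Dg} {s : ℕ} {y : ℕ → ℝ} {c : ℝ} (P : ℕ → Prop) (h0 : P s)
    (h : ∀ x e, P x → e ∈ G.adj x → G.ok x e = true →
      P (G.hd x e) ∧ y x - c * G.ln x e ≤ y (G.hd x e))
    {x d : ℕ} (w : Wk G [(s, 0)] x d) : P x ∧ y s - c * d ≤ y x := by
  generalize hS : [(s, 0)] = S at w
  induction w with
  | base k =>
    rw [← hS, List.mem_singleton, Prod.mk.injEq] at k
    obtain ⟨rfl, rfl⟩ := k
    exact ⟨h0, by simp⟩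
  | step _ a b ih =>
    obtain ⟨k1, k2⟩ := h _ _ ih.1 a b
    refine ⟨k1, ?_⟩
    push_cast
    linarith [ih.2]

theorem IsBall.dual {G : Dg} {s r : ℕ} {B : Bal} (hB : IsBall (Wk G [(s, 0)]) r B) {y : ℕ → ℝ}
    {c : ℝ} (hc : 0 ≤ c) (P : ℕ → Prop) (h0 : P s)
    (h : ∀ x e, P x → e ∈ G.adj x → G.ok x e = true →
      P (G.hd x e) ∧ y x - c * G.ln x e ≤ y (G.hd x e))
    {x : ℕ} (hx : x ∈ B.1) : P x ∧ y s - c * r ≤ y x := by
  obtain ⟨d, a, w⟩ := (hB.mem x).1 hx
  obtain ⟨k1, k2⟩ := dual_le P h0 h w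
  have : c * d ≤ c * r := mul_le_mul_of_nonneg_left (by exact_mod_cast a) hc
  exact ⟨k1, by linarith⟩

theorem IsBall.centre {G : Dg} {s r : ℕ} {B : Bal} (hB : IsBall (Wk G [(s, 0)]) r B) : s ∈ B.1 :=
  (hB.mem s).2 ⟨0, Nat.zero_le _, .base List.mem_cons_self⟩

/-! ### implementation -/

variable {α : Type} [Rp α]

@[fun_prop] theorem Impl.bs {l : α → List It} {K a H : α → ℕ} (hl : Pu true l) (hK : Pu true K)
    (ha : Pu true a) (hH : Pu true H) : Impl fun x => bs (l x) (K x) (a x) (H x) := by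
  unfold Bl.bs half part; impl

@[fun_prop] theorem Impl.ball {adj : α → ℕ → List ℕ} {ok : α → ℕ → ℕ → Bool}
    {hd cap : α → ℕ → ℕ → ℕ} {dij : α → ℕ → R Bal} {T K H : α → ℕ}
    (h1 : Pu true fun p : α × ℕ => adj p.1 p.2)
    (h2 : Pu false fun p : α × ℕ × ℕ => ok p.1 p.2.1 p.2.2)
    (h3 : Pu true fun p : α × ℕ × ℕ => hd p.1 p.2.1 p.2.2)
    (h4 : Pu true fun p : α × ℕ × ℕ => cap p.1 p.2.1 p.2.2)
    (h5 : Impl fun p : α × ℕ => dij p.1 p.2) (hT : Pu true T) (hK : Pu true K) (hH : Pu true H) :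
    Impl fun x => ball (adj x) (ok x) (hd x) (cap x) (dij x) (T x) (K x) (H x) := by
  have h6 : Pu true dij := Pu.lam h5
  unfold Bl.ball grow nxt volR item; impl

end Crest.Agent.N325.Bl
end

-- ▼ part N325/Bl/Trv

/-!
# Row 325, part II (helper70): UNLABEL — the program, the traversal graph and its balls
-/

set_option autoImplicit false
open Finset

namespace Crest.Agent.N325.Bl

open Crest.Agent.N325.P2 Crest.Agent.N325.Ip Crest.Agent.N325.Dj

variable {T : Type}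

/-- nodes: `u < n` = outer vertex, `n + c` = class; arcs: class → members (length `0`), member →
class of the mate of an inner head of a plain arc -/
def trav (E : Env T) (s : S T) (L : ℕ) : Dg where
  adj x := if x < E.G.n then E.G.adj.get x else s.2.mem.get (x - E.G.n)
  ok x e := if x < E.G.n then s.2.pr.get e && decide (s.2.st.get (E.G.hd e) = 1) else true
  hd x e := if x < E.G.n then min (E.G.n + s.2.cls.get (s.2.mt.get (E.G.hd e))) E.C.M else e
  ln x e := if x < E.G.n then L / (s.1.rf.get (5 * e)).toNat + 1 else 0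

/-- capacities -/
def tcap (E : Env T) (s : S T) (x e : ℕ) : ℕ :=
  if x < E.G.n then (s.1.rf.get (5 * e)).toNat else 0

/-- the class of a node -/
def clO (n x : ℕ) : Option ℕ := if x < n then none else some (x - n)

/-- **UNLABEL** -/
def unl (drop : S T → List ℕ → R (S T)) (E : Env T) (s : S T) (c : ℕ) : R (S T) := do
  let L ← nat (10 * (E.P.D / (E.C.Ph * E.C.Z) + 1) * E.C.K * E.C.B)
  let c' ← nat (E.G.n + c)
  let b ← nat (E.C.kb + E.C.K)
  let p ← ballD (trav E s L) (tcap E s) b E.C.fu E.C.K E.C.kb E.C.B c'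
  let Y ← filterMapP (clO E.G.n) p.2.1
  drop s Y

variable {E : Env T} {s : S T} {L c r : ℕ} {B : Bal}

theorem mem_clO {n c : ℕ} {l : List ℕ} : c ∈ l.filterMap (clO n) ↔ n + c ∈ l := by
  rw [List.mem_filterMap]
  refine ⟨fun ⟨x, a, b⟩ => ?_, fun a => ⟨_, a, by simp [clO]⟩⟩
  unfold clO at b
  split_ifs at b with k
  cases b
  rwa [Nat.add_sub_cancel' (not_lt.1 k)]

theorem nodup_clO {n : ℕ} {l : List ℕ} (h : l.Nodup) : (l.filterMap (clO n)).Nodup :=
  h.filterMap fun a a' b k k' => by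
    unfold clO at k k'
    split_ifs at k k' <;> simp at k k'
    omega

/-- an arc out of an outer vertex -/
theorem trav_out (w : E.G.WF) (h : Cmb E.G s.2) (hM : 2 * E.G.n ≤ E.C.M) {x e : ℕ} (hx : x < E.G.n)
    (he : e ∈ (trav E s L).adj x) (ho : (trav E s L).ok x e = true) :
    e < E.G.nd ∧ E.G.tl.get e = x ∧ s.2.pr.get e = true ∧ s.2.st.get (E.G.hd e) = 1 ∧
      isC E.G s.2 (s.2.cls.get (s.2.mt.get (E.G.hd e))) ∧
      (trav E s L).hd x e = E.G.n + s.2.cls.get (s.2.mt.get (E.G.hd e)) := by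
  simp only [trav, if_pos hx, Bool.and_eq_true, decide_eq_true_eq] at he ho ⊢
  obtain ⟨a, b⟩ := (w.mem x hx e).1 he
  have k := (h.entry (w.hd_lt a) (.inl ho.2)).1
  exact ⟨a, b, ho.1, ho.2, k, min_eq_left (by have := k.1; omega)⟩

/-- the nodes that can be reached -/
theorem trav_wk (w : E.G.WF) (h : Cmb E.G s.2) (hM : 2 * E.G.n ≤ E.C.M) (hc : isC E.G s.2 c)
    {x d : ℕ} (k : Wk (trav E s L) [(E.G.n + c, 0)] x d) :
    (x < E.G.n → s.2.st.get x = 2 ∧ Wk (trav E s L) [(E.G.n + c, 0)] (E.G.n + s.2.cls.get x) d) ∧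
      (¬x < E.G.n → isC E.G s.2 (x - E.G.n)) := by
  generalize hS : [(E.G.n + c, 0)] = S at k
  induction k with
  | base k =>
    rw [← hS, List.mem_singleton, Prod.mk.injEq] at k
    obtain ⟨rfl, rfl⟩ := k
    exact ⟨fun a => by omega, fun _ => by rwa [Nat.add_sub_cancel_left]⟩
  | @step x d e k a b ih =>
    by_cases hx : x < E.G.n
    · obtain ⟨-, -, -, -, q1, q2⟩ := trav_out w h hM hx a b
      rw [q2]
      exact ⟨fun a => by omega, fun _ => by rwa [Nat.add_sub_cancel_left]⟩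
    · simp only [trav, if_neg hx] at a ⊢
      obtain ⟨q1, q2, q3⟩ := (h.mem _ (ih.2 hx) e).1 a
      refine ⟨fun _ => ⟨q2, ?_⟩, fun q => absurd q1 q⟩
      rw [q3, Nat.add_sub_cancel' (not_lt.1 hx)]
      exact k

theorem sum_cw {G : Gf} {d : Dt} (h : Cmb G d) :
    ∑ c ∈ (range G.n).filter (isC G d), d.cw.get c ≤ G.n := by
  have e := card_eq_sum_card_fiberwise (s := (range G.n).filter (d.st.get · = 2))
    (t := (range G.n).filter (isC G d)) (f := d.cls.get) fun v hv => by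
      obtain ⟨a, b⟩ := mem_filter.1 hv
      have := h.out v (mem_range.1 a) b
      exact mem_filter.2 ⟨mem_range.2 this.1, this⟩
  refine le_trans (sum_le_sum fun c hc => ?_) (e.ge.trans ((card_filter_le _ _).trans (by simp)))
  have k := (mem_filter.1 hc).2
  rw [h.cw c k, ← List.toFinset_card_of_nodup (h.nodup c k)]
  refine card_le_card fun v hv => ?_
  obtain ⟨a, b, e⟩ := (h.mem c k v).1 (List.mem_toFinset.1 hv)
  exact mem_filter.2 ⟨mem_filter.2 ⟨mem_range.2 a, b⟩, e⟩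

/-- the volume of members `A` and classes `C` -/
theorem trav_vol (w : E.G.WF) (h : Cmb E.G s.2) {V A C : Finset ℕ} (hC : ∀ c ∈ C, isC E.G s.2 c)
    (k : ∀ x ∈ V, (x < E.G.n → x ∈ A) ∧ (¬x < E.G.n → x - E.G.n ∈ C)) :
    ∑ x ∈ V, (1 + ((trav E s L).adj x).length) ≤ 4 * A.card + ∑ c ∈ C, wtC s.2 c := by
  rw [← sum_filter_add_sum_filter_not V (· < E.G.n)]
  refine Nat.add_le_add ?_ ?_
  · refine (sum_le_card_nsmul _ _ 4 fun x hx => ?_).trans ?_
    · simp only [trav, if_pos (mem_filter.1 hx).2]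
      have := w.deg x; omega
    · rw [smul_eq_mul, mul_comm]
      exact Nat.mul_le_mul_left _ (card_le_card fun x hx =>
        (k x (mem_filter.1 hx).1).1 (mem_filter.1 hx).2)
  · have i : Set.InjOn (· - E.G.n) (V.filter fun x => ¬x < E.G.n) := fun a ha b hb e => by
      have := (mem_filter.1 ha).2; have := (mem_filter.1 hb).2
      dsimp only at e; omega
    refine le_trans (le_of_eq ?_) (sum_le_sum_of_subset (s := (V.filter fun x => ¬x < E.G.n).image
      (· - E.G.n)) fun c hc => ?_)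
    · rw [sum_image i]
      refine sum_congr rfl fun x hx => ?_
      obtain ⟨a, b⟩ := mem_filter.1 hx
      simp only [trav, if_neg b, wtC]
      rw [h.cw _ (hC _ ((k x a).2 b)), add_comm]
    · obtain ⟨x, hx, rfl⟩ := mem_image.1 hc
      exact (k x (mem_filter.1 hx).1).2 (mem_filter.1 hx).2

section ball
variable (w : E.G.WF) (h : Cmb E.G s.2) (hM : 2 * E.G.n ≤ E.C.M) (hc : isC E.G s.2 c)
  (hB : IsBall (Wk (trav E s L) [(E.G.n + c, 0)]) r B)
include w h hM hc hB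

theorem ball_cls {c' : ℕ} (k : E.G.n + c' ∈ B.1) : isC E.G s.2 c' := by
  have := (trav_wk w h hM hc (hB.dw _ k)).2 (by omega)
  rwa [Nat.add_sub_cancel_left] at this

theorem ball_mem {x : ℕ} (hx : x < E.G.n) :
    x ∈ B.1 ↔ s.2.st.get x = 2 ∧ E.G.n + s.2.cls.get x ∈ B.1 := by
  rw [hB.mem, hB.mem]
  refine ⟨fun ⟨d, a, b⟩ => ?_, fun ⟨q, d, a, b⟩ => ⟨d, a, ?_⟩⟩
  · obtain ⟨q1, q2⟩ := (trav_wk w h hM hc b).1 hx
    exact ⟨q1, d, a, q2⟩
  · have n : ¬E.G.n + s.2.cls.get x < E.G.n := by omega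
    have := b.step (e := x) (by
      simp only [trav, if_neg n, Nat.add_sub_cancel_left]
      exact (h.mem _ (h.out x hx q) x).2 ⟨hx, q, rfl⟩) (by simp only [trav, if_neg n])
    simpa only [trav, if_neg n, add_zero] using this

theorem ball_vol : vol (trav E s L).adj B.1 ≤
    5 * ∑ c ∈ (B.1.filterMap (clO E.G.n)).toFinset, wtC s.2 c := by
  set Y := (B.1.filterMap (clO E.G.n)).toFinset
  have hY : ∀ c, c ∈ Y ↔ E.G.n + c ∈ B.1 := fun c => by rw [List.mem_toFinset, mem_clO]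
  rw [vol, ← List.sum_toFinset _ hB.nd]
  refine (trav_vol w h (A := Y.biUnion fun c => (s.2.mem.get c).toFinset) (C := Y)
    (fun c k => ball_cls w h hM hc hB ((hY c).1 k)) fun x hx => ⟨fun k => ?_, fun k => ?_⟩).trans ?_
  · obtain ⟨a, b⟩ := (ball_mem w h hM hc hB k).1 (List.mem_toFinset.1 hx)
    exact mem_biUnion.2 ⟨_, (hY _).2 b, List.mem_toFinset.2
      ((h.mem _ (h.out x k a) x).2 ⟨k, a, rfl⟩)⟩
  · rw [hY, Nat.add_sub_cancel' (not_lt.1 k)]; exact List.mem_toFinset.1 hx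
  · have : (Y.biUnion fun c => (s.2.mem.get c).toFinset).card ≤ ∑ c ∈ Y, wtC s.2 c :=
      card_biUnion_le.trans (sum_le_sum fun c k => (List.toFinset_card_le _).trans (by
        rw [wtC, h.cw c (ball_cls w h hM hc hB ((hY c).1 k))]; omega))
    omega

/-- the darts that leave the ball -/
theorem ball_cut : ∑ o ∈ (range E.G.nd).filter (fun o => s.2.pr.get o = true ∧
      s.2.cls.get (E.G.tl.get o) ∈ (B.1.filterMap (clO E.G.n)).toFinset ∧
      s.2.st.get (E.G.hd o) = 1 ∧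
      s.2.cls.get (s.2.mt.get (E.G.hd o)) ∉ (B.1.filterMap (clO E.G.n)).toFinset),
      (s.1.rf.get (5 * o)).toNat ≤
    cut (trav E s L).adj (trav E s L).ok (trav E s L).hd (tcap E s) B.1 := by
  set Y := (B.1.filterMap (clO E.G.n)).toFinset
  have hY : ∀ c, c ∈ Y ↔ E.G.n + c ∈ B.1 := fun c => by rw [List.mem_toFinset, mem_clO]
  rw [cut, ← List.sum_toFinset _ hB.nd, ← sum_fiberwise_of_maps_to (t := B.1.toFinset)
    (g := E.G.tl.get) fun o ho => by
      obtain ⟨a, b, q, -⟩ := mem_filter.1 ho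
      rw [mem_range] at a
      exact List.mem_toFinset.2 ((ball_mem w h hM hc hB (w.tl_lt o a)).2
        ⟨(h.pr o a b).1, (hY _).1 q⟩)]
  refine sum_le_sum fun x _ => ?_
  by_cases hx : x < E.G.n
  swap
  · refine le_trans (le_of_eq (sum_eq_zero fun o ho => ?_)) (Nat.zero_le _)
    obtain ⟨a, b⟩ := mem_filter.1 ho
    exact absurd (b ▸ w.tl_lt o (mem_range.1 (mem_filter.1 a).1)) hx
  have ea : (trav E s L).adj x = E.G.adj.get x := if_pos hx
  rw [ea, ← List.sum_toFinset _ (w.nodup x hx)]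
  refine le_trans (sum_le_sum fun o ho => ?_) (sum_le_sum_of_subset fun o ho => ?_)
  · obtain ⟨a, b⟩ := mem_filter.1 ho
    obtain ⟨a1, a2, -, a3, a4⟩ := mem_filter.1 a
    have ok : (trav E s L).ok x o = true := by simp [trav, hx, a2, a3]
    rw [if_pos ⟨ok, by
      rw [(trav_out w h hM hx (ea ▸ (w.mem x hx o).2 ⟨mem_range.1 a1, b⟩) ok).2.2.2.2.2, ← hY]
      exact a4⟩, tcap, if_pos hx]
  · obtain ⟨a, b⟩ := mem_filter.1 ho
    exact List.mem_toFinset.2 ((w.mem x hx o).2 ⟨mem_range.1 (mem_filter.1 a).1, b⟩)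

/-- the duals of the classes of the ball -/
theorem ball_dual {y : ℕ → ℝ} {a : ℝ} (ha : 0 ≤ a)
    (hy : ∀ o < E.G.nd, s.2.pr.get o = true → s.2.st.get (E.G.hd o) = 1 →
      y (s.2.cls.get (E.G.tl.get o) + 1) - a * (L / (s.1.rf.get (5 * o)).toNat + 1 : ℕ) ≤
        y (s.2.cls.get (s.2.mt.get (E.G.hd o)) + 1))
    {c' : ℕ} (k : E.G.n + c' ∈ B.1) : y (c + 1) - a * r ≤ y (c' + 1) := by
  have := (hB.dual (y := fun x => if x < E.G.n then y (s.2.cls.get x + 1) else y (x - E.G.n + 1))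
    ha (fun x => ¬x < E.G.n → isC E.G s.2 (x - E.G.n))
    (fun _ => by rwa [Nat.add_sub_cancel_left]) (fun x e p a b => ?_) k).2
  · simpa using this
  by_cases hx : x < E.G.n
  · obtain ⟨q1, q2, q3, q4, q5, q6⟩ := trav_out w h hM hx a b
    rw [q6]
    refine ⟨fun _ => by rwa [Nat.add_sub_cancel_left], ?_⟩
    have := hy e q1 q3 q4
    rw [q2] at this
    rw [if_pos hx, if_neg (by omega), Nat.add_sub_cancel_left]
    simpa only [trav, if_pos hx] using this
  · simp only [trav, if_neg hx] at a ⊢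
    obtain ⟨q1, -, q3⟩ := (h.mem _ (p hx) e).1 a
    refine ⟨fun q => absurd q1 q, ?_⟩
    rw [if_pos q1, q3]; simp

end ball

end Crest.Agent.N325.Bl
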